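import Vale.Agent.Lib.P158.Passage

namespace Vale.Agent.Lib.P158

open SimpleGraph

/-- The box of vertices `[x0, x0 + L] × [-w, w + 1]`. -/
noncomputable def box (w L : ℕ) (x0 : ℤ) : Finset (ℤ × ℤ) :=
  Finset.Icc x0 (x0 + L) ×ˢ Finset.Icc (-(w : ℤ)) ((w : ℤ) + 1)

lemma mem_box {w L : ℕ} {x0 : ℤ} {u : ℤ × ℤ} :
    u ∈ box w L x0 ↔ (x0 ≤ u.1 ∧ u.1 ≤ x0 + L) ∧ (-(w : ℤ) ≤ u.2 ∧ u.2 ≤ (w : ℤ) + 1) := by
  unfold box
  rw [Finset.mem_product, Finset.mem_Icc, Finset.mem_Icc]

lemma card_box (w L : ℕ) (x0 : ℤ) : (box w L x0).card = (L + 1) * (2 * w + 2) := by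
  unfold box
  rw [Finset.card_product, Int.card_Icc, Int.card_Icc]
  congr 1
  · have : x0 + (L : ℤ) + 1 - x0 = ((L + 1 : ℕ) : ℤ) := by push_cast; ring
    rw [this, Int.toNat_natCast]
  · have : (w : ℤ) + 1 + 1 - -(w : ℤ) = ((2 * w + 2 : ℕ) : ℤ) := by push_cast; ring
    rw [this, Int.toNat_natCast]

open Classical in
/-- The edges of the lattice with both endpoints in the box. -/
noncomputable def blockEdges (w L : ℕ) (x0 : ℤ) : Finset Z2.edgeSet :=
  (box w L x0).sym2.subtype (· ∈ Z2.edgeSet)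

/-- Light edges: the two side columns and the top row of the box. -/
def IsLight (w L : ℕ) (x0 : ℤ) (e : Sym2 (ℤ × ℤ)) : Prop :=
  (∀ u ∈ e, u.1 = x0) ∨ (∀ u ∈ e, u.1 = x0 + L) ∨ (∀ u ∈ e, u.2 = (w : ℤ) + 1)

open Classical in
/-- The set in which the weight of a block edge is required to lie. -/
noncomputable def target (w L : ℕ) (a b : ℝ) (x0 : ℤ) (e : Z2.edgeSet) : Set ℝ :=
  if IsLight w L x0 e.1 then Set.Iic a else Set.Ici b

/-- The blocking configuration at horizontal position `x0`. -/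
def IsBlock (w L : ℕ) (a b : ℝ) (t : Z2.edgeSet → ℝ) (x0 : ℤ) : Prop :=
  ∀ e ∈ blockEdges w L x0, t e ∈ target w L a b x0 e

variable {w L : ℕ} {a b : ℝ} {t : Z2.edgeSet → ℝ} {x0 : ℤ}

open Classical in
lemma mem_blockEdges {u u' : ℤ × ℤ} (h : Z2.Adj u u') (hu : u ∈ box w L x0)
    (hu' : u' ∈ box w L x0) :
    (⟨s(u, u'), (SimpleGraph.mem_edgeSet Z2).2 h⟩ : Z2.edgeSet) ∈ blockEdges w L x0 := by
  unfold blockEdges
  rw [Finset.mem_subtype, Finset.mem_sym2_iff]
  intro x hx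
  rw [Sym2.mem_iff] at hx
  rcases hx with rfl | rfl
  · exact hu
  · exact hu'

lemma light_le (hblk : IsBlock w L a b t x0) {u u' : ℤ × ℤ} (h : Z2.Adj u u')
    (hu : u ∈ box w L x0) (hu' : u' ∈ box w L x0) (hl : IsLight w L x0 s(u, u')) :
    wt t s(u, u') ≤ a := by
  rw [wt_eq_of_adj h]
  have := hblk _ (mem_blockEdges h hu hu')
  unfold target at this
  rw [if_pos hl] at this
  exact this

lemma heavy_ge (hblk : IsBlock w L a b t x0) {u u' : ℤ × ℤ} (h : Z2.Adj u u')
    (hu : u ∈ box w L x0) (hu' : u' ∈ box w L x0) (hl : ¬ IsLight w L x0 s(u, u')) :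
    b ≤ wt t s(u, u') := by
  rw [wt_eq_of_adj h]
  have := hblk _ (mem_blockEdges h hu hu')
  unfold target at this
  rw [if_neg hl] at this
  exact this

/-- Going up a side column of a block is cheap. -/
lemma col_walk (hblk : IsBlock w L a b t x0) (x : ℤ) (hx : x = x0 ∨ x = x0 + L) :
    ∀ n : ℕ, ∀ y : ℤ, -(w : ℤ) ≤ y → y + n = (w : ℤ) + 1 →
      ∃ π : Z2.Walk (x, y) (x, (w : ℤ) + 1), walkTime t π ≤ a * n := by
  intro n
  induction n with
  | zero =>
    intro y _ hy
    have : y = (w : ℤ) + 1 := by simpa using hy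
    subst this
    exact ⟨Walk.nil, by simp⟩
  | succ n ih =>
    intro y hy1 hy2
    have hy3 : y + 1 + (n : ℤ) = (w : ℤ) + 1 := by push_cast at hy2; linarith
    obtain ⟨π, hπ⟩ := ih (y + 1) (by linarith) hy3
    refine ⟨Walk.cons (adj_up x y) π, ?_⟩
    rw [walkTime_cons]
    have hn : (0 : ℤ) ≤ n := Int.natCast_nonneg n
    have hL : (0 : ℤ) ≤ L := Int.natCast_nonneg L
    have h1 : wt t s((x, y), (x, y + 1)) ≤ a := by
      apply light_le hblk (adj_up x y)
      · rw [mem_box]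
        rcases hx with rfl | rfl <;> simp <;> constructor <;> linarith
      · rw [mem_box]
        rcases hx with rfl | rfl <;> simp <;> constructor <;> linarith
      · rcases hx with rfl | rfl
        · left
          intro u hu
          rw [Sym2.mem_iff] at hu
          rcases hu with rfl | rfl <;> rfl
        · right; left
          intro u hu
          rw [Sym2.mem_iff] at hu
          rcases hu with rfl | rfl <;> rfl
    push_cast
    linarith

/-- Going right along the top row of a block is cheap. -/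
lemma row_walk (hblk : IsBlock w L a b t x0) :
    ∀ n : ℕ, ∀ x : ℤ, x0 ≤ x → x + n = x0 + L →
      ∃ π : Z2.Walk (x, (w : ℤ) + 1) (x0 + L, (w : ℤ) + 1), walkTime t π ≤ a * n := by
  intro n
  induction n with
  | zero =>
    intro x _ hx
    have : x = x0 + L := by simpa using hx
    subst this
    exact ⟨Walk.nil, by simp⟩
  | succ n ih =>
    intro x hx1 hx2
    have hx3 : x + 1 + (n : ℤ) = x0 + L := by push_cast at hx2; linarith
    obtain ⟨π, hπ⟩ := ih (x + 1) (by linarith) hx3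
    refine ⟨Walk.cons (adj_right x ((w : ℤ) + 1)) π, ?_⟩
    rw [walkTime_cons]
    have hn : (0 : ℤ) ≤ n := Int.natCast_nonneg n
    have hw : (0 : ℤ) ≤ w := Int.natCast_nonneg w
    have h1 : wt t s((x, (w : ℤ) + 1), (x + 1, (w : ℤ) + 1)) ≤ a := by
      apply light_le hblk (adj_right x _)
      · rw [mem_box]
        simp
        refine ⟨⟨hx1, by linarith⟩, by linarith⟩
      · rw [mem_box]
        simp
        refine ⟨⟨by linarith, by linarith⟩, by linarith⟩
      · right; right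
        intro u hu
        rw [Sym2.mem_iff] at hu
        rcases hu with rfl | rfl <;> rfl
    push_cast
    linarith

/-- The bypass: a cheap path from the left side column to the right side column. -/
lemma bypass (ha : 0 ≤ a) (hblk : IsBlock w L a b t x0) (p q : ℤ × ℤ)
    (hp1 : p.1 = x0) (hp2 : -(w : ℤ) ≤ p.2) (hp3 : p.2 ≤ w)
    (hq1 : q.1 = x0 + L) (hq2 : -(w : ℤ) ≤ q.2) (hq3 : q.2 ≤ w) :
    ∃ π : Z2.Walk p q, walkTime t π ≤ a * (L + 4 * w + 2) := by
  obtain ⟨px, py⟩ := p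
  obtain ⟨qx, qy⟩ := q
  simp only at hp1 hp2 hp3 hq1 hq2 hq3
  subst hp1
  subst hq1
  obtain ⟨π1, h1⟩ := col_walk hblk px (Or.inl rfl) ((w : ℤ) + 1 - py).toNat py hp2
    (by rw [Int.toNat_of_nonneg (by linarith)]; ring)
  obtain ⟨π2, h2⟩ := row_walk hblk L px le_rfl rfl
  obtain ⟨π3, h3⟩ := col_walk hblk (px + L) (Or.inr rfl) ((w : ℤ) + 1 - qy).toNat qy hq2
    (by rw [Int.toNat_of_nonneg (by linarith)]; ring)
  refine ⟨π1.append (π2.append π3.reverse), ?_⟩
  rw [walkTime_append, walkTime_append, walkTime_reverse]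
  have e1 : (((w : ℤ) + 1 - py).toNat : ℝ) ≤ 2 * w + 1 := by
    have : (((w : ℤ) + 1 - py).toNat : ℤ) ≤ 2 * w + 1 := by
      rw [Int.toNat_of_nonneg (by linarith)]; linarith
    exact_mod_cast this
  have e3 : (((w : ℤ) + 1 - qy).toNat : ℝ) ≤ 2 * w + 1 := by
    have : (((w : ℤ) + 1 - qy).toNat : ℤ) ≤ 2 * w + 1 := by
      rw [Int.toNat_of_nonneg (by linarith)]; linarith
    exact_mod_cast this
  have f1 := mul_le_mul_of_nonneg_left e1 ha
  have f3 := mul_le_mul_of_nonneg_left e3 ha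
  nlinarith

end Vale.Agent.Lib.P158
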