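import Vale.Agent.Lib.P158.Block

namespace Vale.Agent.Lib.P158

open SimpleGraph

variable {w L : ℕ} {a b : ℝ} {t : Z2.edgeSet → ℝ} {x0 : ℤ}

lemma ray_lipschitz {v : ℕ → ℤ × ℤ} (hadj : ∀ i, Z2.Adj (v i) (v (i + 1))) (i : ℕ) :
    ∀ n : ℕ, |(v (i + n)).1 - (v i).1| ≤ n := by
  intro n
  induction n with
  | zero => simp
  | succ n ih =>
    have h1 := adj_abs_fst (hadj (i + n))
    have h2 : (v (i + (n + 1))).1 - (v i).1
        = ((v (i + n + 1)).1 - (v (i + n)).1) + ((v (i + n)).1 - (v i).1) := by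
      rw [← add_assoc]; ring
    rw [h2]
    push_cast
    exact (abs_add_le _ _).trans (by linarith)

/-- A geodesic ray confined to the strip cannot cross a block. -/
theorem block_no_crossing (hL : 1 ≤ L) (ha : 0 ≤ a)
    (hab : a * (L + 4 * w + 2) < b * L) (ht : ∀ e, 0 ≤ t e)
    (hblk : IsBlock w L a b t x0) (v : ℕ → ℤ × ℤ) (hv : IsGeodesicRay t v)
    (hstrip : ∀ i, |(v i).2| ≤ w) (i j : ℕ) (hij : i < j)
    (hends : ((v i).1 = x0 ∧ (v j).1 = x0 + L) ∨ ((v i).1 = x0 + L ∧ (v j).1 = x0))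
    (hint : ∀ k, i < k → k < j → x0 < (v k).1 ∧ (v k).1 < x0 + L) : False := by
  obtain ⟨-, hadj, hgeo⟩ := hv
  have hLpos : (0 : ℝ) < L := by exact_mod_cast hL
  have hLz : (1 : ℤ) ≤ L := by exact_mod_cast hL
  have hw0 : (0 : ℝ) ≤ w := Nat.cast_nonneg w
  have hb : 0 ≤ b := by
    by_contra hneg
    rw [not_le] at hneg
    have h1 : b * L < 0 := mul_neg_of_neg_of_pos hneg hLpos
    have h2 : 0 ≤ a * (L + 4 * w + 2) := by positivity
    linarith
  -- every vertex of the segment is in the box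
  have hbox : ∀ k, i ≤ k → k ≤ j → v k ∈ box w L x0 := by
    intro k hik hkj
    rw [mem_box]
    have hs := abs_le.1 (hstrip k)
    refine ⟨?_, by linarith [hs.1], by linarith [hs.2]⟩
    rcases Nat.eq_or_lt_of_le hik with rfl | hik'
    · rcases hends with ⟨h1, -⟩ | ⟨h1, -⟩ <;> rw [h1] <;> constructor <;> linarith
    rcases Nat.eq_or_lt_of_le hkj with rfl | hkj'
    · rcases hends with ⟨-, h1⟩ | ⟨-, h1⟩ <;> rw [h1] <;> constructor <;> linarith
    · have := hint k hik' hkj'
      constructor <;> linarith [this.1, this.2]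
  -- no vertex strictly inside the segment lies on a side column
  have hside : ∀ k, i ≤ k → k ≤ j → ((v k).1 = x0 ∨ (v k).1 = x0 + L) → k = i ∨ k = j := by
    intro k hik hkj hk
    by_contra hne
    rw [not_or] at hne
    have h1 : i < k := lt_of_le_of_ne hik (Ne.symm hne.1)
    have h2 : k < j := lt_of_le_of_ne hkj hne.2
    have := hint k h1 h2
    rcases hk with hk | hk <;> linarith [this.1, this.2]
  -- every edge of the segment is heavy
  have hheavy : ∀ k ∈ Finset.Ico i j, b ≤ wt t s(v k, v (k + 1)) := by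
    intro k hk
    rw [Finset.mem_Ico] at hk
    apply heavy_ge hblk (hadj k) (hbox k hk.1 hk.2.le) (hbox (k + 1) (by omega) (by omega))
    rintro (h | h | h)
    · have h1 := h (v k) (Sym2.mem_mk_left _ _)
      have h2 := h (v (k + 1)) (Sym2.mem_mk_right _ _)
      have k1 := hside k hk.1 hk.2.le (Or.inl h1)
      have k2 := hside (k + 1) (by omega) (by omega) (Or.inl h2)
      have hki : k = i := by omega
      have hkj : k + 1 = j := by omega
      subst hki
      subst hkj
      rcases hends with ⟨e1, e2⟩ | ⟨e1, e2⟩ <;> linarith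
    · have h1 := h (v k) (Sym2.mem_mk_left _ _)
      have h2 := h (v (k + 1)) (Sym2.mem_mk_right _ _)
      have k1 := hside k hk.1 hk.2.le (Or.inr h1)
      have k2 := hside (k + 1) (by omega) (by omega) (Or.inr h2)
      have hki : k = i := by omega
      have hkj : k + 1 = j := by omega
      subst hki
      subst hkj
      rcases hends with ⟨e1, e2⟩ | ⟨e1, e2⟩ <;> linarith
    · have h1 := h (v k) (Sym2.mem_mk_left _ _)
      have hs := abs_le.1 (hstrip k)
      linarith [hs.2]
  -- lower bound for the passage time of the segment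
  have hlow : b * ((j - i : ℕ) : ℝ) ≤ ∑ k ∈ Finset.Ico i j, wt t s(v k, v (k + 1)) := by
    have := Finset.card_nsmul_le_sum (Finset.Ico i j) (fun k => wt t s(v k, v (k + 1))) b hheavy
    rw [Nat.card_Ico, nsmul_eq_mul] at this
    linarith [mul_comm b ((j - i : ℕ) : ℝ)]
  -- the segment has at least L edges
  have hlen : (L : ℝ) ≤ ((j - i : ℕ) : ℝ) := by
    have h1 := ray_lipschitz hadj i (j - i)
    rw [show i + (j - i) = j by omega] at h1
    have h2 : |(v j).1 - (v i).1| = L := by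
      rcases hends with ⟨e1, e2⟩ | ⟨e1, e2⟩
      · rw [e1, e2]; simp
      · rw [e1, e2]; simp
    rw [h2] at h1
    exact_mod_cast h1
  -- upper bound through the bypass
  have hup : passageTime t (v i) (v j) ≤ a * (L + 4 * w + 2) := by
    have hsi := abs_le.1 (hstrip i)
    have hsj := abs_le.1 (hstrip j)
    rcases hends with ⟨e1, e2⟩ | ⟨e1, e2⟩
    · obtain ⟨π, hπ⟩ := bypass ha hblk (v i) (v j) e1 hsi.1 hsi.2 e2 hsj.1 hsj.2
      exact (passageTime_le_walkTime ht π).trans hπ
    · obtain ⟨π, hπ⟩ := bypass ha hblk (v j) (v i) e2 hsj.1 hsj.2 e1 hsi.1 hsi.2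
      have := passageTime_le_walkTime ht π.reverse
      rw [walkTime_reverse] at this
      exact this.trans hπ
  have hfin := hgeo i j hij
  have : b * L ≤ b * ((j - i : ℕ) : ℝ) := mul_le_mul_of_nonneg_left hlen hb
  linarith

/-- Discrete intermediate value lemma: a nearest-neighbour integer sequence going from below
`lo` to above `hi` contains a clean crossing of `[lo, hi]`. -/
lemma exists_crossing (X : ℕ → ℤ) (hX : ∀ i, |X (i + 1) - X i| ≤ 1) (lo hi : ℤ) (hlt : lo < hi)
    (i0 j0 : ℕ) (hij : i0 ≤ j0) (h0 : X i0 ≤ lo) (h1 : hi ≤ X j0) :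
    ∃ i j, i < j ∧ X i = lo ∧ X j = hi ∧ ∀ k, i < k → k < j → lo < X k ∧ X k < hi := by
  classical
  have hex : ∃ j, i0 ≤ j ∧ hi ≤ X j := ⟨j0, hij, h1⟩
  set j := Nat.find hex with hj
  obtain ⟨hj1, hj2⟩ := Nat.find_spec hex
  have hjmin : ∀ m, m < j → ¬ (i0 ≤ m ∧ hi ≤ X m) := fun m hm => Nat.find_min hex hm
  have hi0j : i0 < j := by
    rcases Nat.eq_or_lt_of_le hj1 with h | h
    · rw [← h] at hj2; linarith
    · exact h
  have hXj : X j = hi := by
    have h3 : X (j - 1) < hi := by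
      have := hjmin (j - 1) (by omega)
      by_contra hcon
      exact this ⟨by omega, by linarith⟩
    have h4 := abs_le.1 (hX (j - 1))
    rw [show j - 1 + 1 = j by omega] at h4
    linarith [h4.2]
  set i := Nat.findGreatest (fun k => i0 ≤ k ∧ X k ≤ lo) (j - 1) with hi_def
  have hPi : i0 ≤ i ∧ X i ≤ lo :=
    Nat.findGreatest_spec (P := fun k => i0 ≤ k ∧ X k ≤ lo) (m := i0) (by omega) ⟨le_rfl, h0⟩
  have hile : i ≤ j - 1 := Nat.findGreatest_le (j - 1)
  have hgreat : ∀ k, i < k → k ≤ j - 1 → ¬ (i0 ≤ k ∧ X k ≤ lo) := fun k hk hk' =>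
    Nat.findGreatest_is_greatest hk hk'
  have hinter : ∀ k, i < k → k < j → lo < X k ∧ X k < hi := by
    intro k hik hkj
    constructor
    · by_contra hcon
      exact hgreat k hik (by omega) ⟨by omega, by linarith⟩
    · by_contra hcon
      exact hjmin k hkj ⟨by omega, by linarith⟩
  refine ⟨i, j, by omega, ?_, hXj, hinter⟩
  have h5 : lo < X (i + 1) := by
    rcases Nat.eq_or_lt_of_le (show i + 1 ≤ j by omega) with h | h
    · rw [h, hXj]; exact hlt
    · exact (hinter (i + 1) (by omega) h).1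
  have h6 := abs_le.1 (hX i)
  linarith [h6.2, hPi.2]

/-- Mirror image of `exists_crossing`. -/
lemma exists_crossing' (X : ℕ → ℤ) (hX : ∀ i, |X (i + 1) - X i| ≤ 1) (lo hi : ℤ) (hlt : lo < hi)
    (i0 j0 : ℕ) (hij : i0 ≤ j0) (h0 : hi ≤ X i0) (h1 : X j0 ≤ lo) :
    ∃ i j, i < j ∧ X i = hi ∧ X j = lo ∧ ∀ k, i < k → k < j → lo < X k ∧ X k < hi := by
  obtain ⟨i, j, h, e1, e2, e3⟩ := exists_crossing (fun n => - X n)
    (fun n => by
      have := hX n
      rw [show - X (n + 1) - - X n = -(X (n + 1) - X n) by ring, abs_neg]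
      exact this)
    (-hi) (-lo) (by linarith) i0 j0 hij (by simpa using h0) (by simpa using h1)
  refine ⟨i, j, h, by simpa using e1, by simpa using e2, ?_⟩
  intro k hk hk'
  have := e3 k hk hk'
  constructor <;> linarith [this.1, this.2]

end Vale.Agent.Lib.P158
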