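import Mathlib

namespace Vale.Agent.Lib.P158

/-- The nearest-neighbour graph of the square lattice: vertices are the points of `ℤ × ℤ`,
two vertices are adjacent when they are at `ℓ¹`-distance one. -/
def Z2 : SimpleGraph (ℤ × ℤ) where
  Adj x y := |x.1 - y.1| + |x.2 - y.2| = 1
  symm := ⟨fun x y h => by rw [abs_sub_comm y.1 x.1, abs_sub_comm y.2 x.2]; exact h⟩
  loopless := ⟨fun x h => by simp at h⟩

open Classical in
/-- An edge-weight configuration `t` (one real number per nearest-neighbour edge), extended by
zero to all unordered pairs of vertices. -/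
noncomputable def wt (t : Z2.edgeSet → ℝ) (e : Sym2 (ℤ × ℤ)) : ℝ :=
  if h : e ∈ Z2.edgeSet then t ⟨e, h⟩ else 0

/-- The passage time of a finite nearest-neighbour path (a walk of the graph): the sum of the
weights of the traversed edges. -/
noncomputable def walkTime (t : Z2.edgeSet → ℝ) {x y : ℤ × ℤ} (p : Z2.Walk x y) : ℝ :=
  (p.edges.map (wt t)).sum

/-- The passage time `T(x,y)`: the infimum of the passage times of all finite
nearest-neighbour paths from `x` to `y`. -/
noncomputable def passageTime (t : Z2.edgeSet → ℝ) (x y : ℤ × ℤ) : ℝ :=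
  ⨅ p : Z2.Walk x y, walkTime t p

/-- A geodesic ray: a one-sided sequence of pairwise distinct vertices, consecutive ones
adjacent, every finite segment of which realises the passage time between its endpoints. -/
def IsGeodesicRay (t : Z2.edgeSet → ℝ) (v : ℕ → ℤ × ℤ) : Prop :=
  Function.Injective v ∧ (∀ i, Z2.Adj (v i) (v (i + 1))) ∧
    ∀ i j, i < j → ∑ k ∈ Finset.Ico i j, wt t s(v k, v (k + 1)) = passageTime t (v i) (v j)

/-- A bigeodesic: a two-sided sequence of pairwise distinct vertices, consecutive ones
adjacent, every finite segment of which realises the passage time between its endpoints. -/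
def IsBigeodesic (t : Z2.edgeSet → ℝ) (v : ℤ → ℤ × ℤ) : Prop :=
  Function.Injective v ∧ (∀ i, Z2.Adj (v i) (v (i + 1))) ∧
    ∀ i j, i < j → ∑ k ∈ Finset.Ico i j, wt t s(v k, v (k + 1)) = passageTime t (v i) (v j)

end Vale.Agent.Lib.P158
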