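import Vale.Agent.Lib.P158.Prob

namespace Vale.Agent.Lib.P158

open MeasureTheory ProbabilityTheory Filter
open scoped ENNReal Topology

/-- A probability law on `[0, ∞)` that is not a point mass charges two separated half-lines. -/
lemma exists_levels (G : Measure ℝ) [IsProbabilityMeasure G] (hG0 : G (Set.Iio 0) = 0)
    (hG : ∀ x, G {x} ≠ 1) :
    ∃ a b : ℝ, 0 ≤ a ∧ a < b ∧ 0 < G (Set.Iic a) ∧ 0 < G (Set.Ici b) := by
  -- first find a level `a` with `0 < G (Iic a) < 1`
  have key : ∃ a : ℝ, 0 < G (Set.Iic a) ∧ G (Set.Iic a) < 1 := by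
    by_contra hcon
    have h01 : ∀ a : ℝ, G (Set.Iic a) = 0 ∨ G (Set.Iic a) = 1 := by
      intro a
      by_contra h
      rw [not_or] at h
      exact hcon ⟨a, pos_iff_ne_zero.2 h.1, lt_of_le_of_ne prob_le_one h.2⟩
    set S : Set ℝ := {a | G (Set.Iic a) = 1} with hS
    have hSne : S.Nonempty := by
      have hlim := tendsto_measure_Iic_atTop G
      rw [measure_univ] at hlim
      have hev : ∀ᶠ x in atTop, (0 : ℝ≥0∞) < G (Set.Iic x) :=
        hlim.eventually (lt_mem_nhds (by norm_num))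
      obtain ⟨x, hx⟩ := hev.exists
      exact ⟨x, (h01 x).resolve_left (ne_of_gt hx)⟩
    have hSbdd : BddBelow S := by
      refine ⟨0, fun a ha => ?_⟩
      by_contra hneg
      rw [not_le] at hneg
      have : G (Set.Iic a) = 0 :=
        measure_mono_null (fun x hx => lt_of_le_of_lt (Set.mem_Iic.1 hx) hneg) hG0
      have ha' : G (Set.Iic a) = 1 := ha
      rw [this] at ha'
      exact zero_ne_one ha'
    set c := sInf S with hc
    have hlow : G (Set.Iio c) = 0 := by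
      have hcov : Set.Iio c ⊆ ⋃ n : ℕ, Set.Iic (c - 1 / ((n : ℝ) + 1)) := by
        intro x hx
        rw [Set.mem_Iio] at hx
        obtain ⟨n, hn⟩ := exists_nat_one_div_lt (sub_pos.2 hx)
        exact Set.mem_iUnion.2 ⟨n, by rw [Set.mem_Iic]; linarith⟩
      refine measure_mono_null hcov (measure_iUnion_null (fun n => ?_))
      have hpos : (0 : ℝ) < 1 / ((n : ℝ) + 1) := Nat.one_div_pos_of_nat
      have hnot : c - 1 / ((n : ℝ) + 1) ∉ S := fun hmem => by
        have := csInf_le hSbdd hmem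
        linarith
      exact (h01 _).resolve_right hnot
    have hhigh : G (Set.Ioi c) = 0 := by
      have hcov : Set.Ioi c ⊆ ⋃ n : ℕ, Set.Ioi (c + 1 / ((n : ℝ) + 1)) := by
        intro x hx
        rw [Set.mem_Ioi] at hx
        obtain ⟨n, hn⟩ := exists_nat_one_div_lt (sub_pos.2 hx)
        exact Set.mem_iUnion.2 ⟨n, by rw [Set.mem_Ioi]; linarith⟩
      refine measure_mono_null hcov (measure_iUnion_null (fun n => ?_))
      have hpos : (0 : ℝ) < 1 / ((n : ℝ) + 1) := Nat.one_div_pos_of_nat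
      obtain ⟨s, hsS, hs⟩ := exists_lt_of_csInf_lt hSne
        (show sInf S < c + 1 / ((n : ℝ) + 1) by linarith)
      have h1 : G (Set.Iic (c + 1 / ((n : ℝ) + 1))) = 1 := by
        refine le_antisymm prob_le_one ?_
        have hs1 : G (Set.Iic s) = 1 := hsS
        rw [← hs1]
        exact measure_mono (Set.Iic_subset_Iic.2 hs.le)
      have h2 : Set.Ioi (c + 1 / ((n : ℝ) + 1)) = (Set.Iic (c + 1 / ((n : ℝ) + 1)))ᶜ := by
        ext x; simp
      rw [h2, prob_compl_eq_one_sub measurableSet_Iic, h1, tsub_self]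
    have hone : G {c} = 1 := by
      have huniv : (Set.univ : Set ℝ) = Set.Iio c ∪ {c} ∪ Set.Ioi c := by
        ext x
        simp only [Set.mem_univ, Set.mem_union, Set.mem_Iio, Set.mem_singleton_iff, Set.mem_Ioi,
          true_iff]
        rcases lt_trichotomy x c with h | h | h
        · exact Or.inl (Or.inl h)
        · exact Or.inl (Or.inr h)
        · exact Or.inr h
      refine le_antisymm prob_le_one ?_
      calc (1 : ℝ≥0∞) = G Set.univ := measure_univ.symm
        _ = G (Set.Iio c ∪ {c} ∪ Set.Ioi c) := by rw [← huniv]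
        _ ≤ G (Set.Iio c ∪ {c}) + G (Set.Ioi c) := measure_union_le _ _
        _ ≤ G (Set.Iio c) + G {c} + G (Set.Ioi c) := by
            gcongr
            exact measure_union_le _ _
        _ = G {c} := by rw [hlow, hhigh, zero_add, add_zero]
    exact hG c hone
  obtain ⟨a, ha0, ha1⟩ := key
  have ha : 0 ≤ a := by
    by_contra hneg
    rw [not_le] at hneg
    have : G (Set.Iic a) = 0 :=
      measure_mono_null (fun x hx => lt_of_le_of_lt (Set.mem_Iic.1 hx) hneg) hG0
    rw [this] at ha0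
    exact lt_irrefl _ ha0
  have hIoi : 0 < G (Set.Ioi a) := by
    have h2 : Set.Ioi a = (Set.Iic a)ᶜ := by ext x; simp
    rw [h2, prob_compl_eq_one_sub measurableSet_Iic]
    exact tsub_pos_of_lt ha1
  have hex : ∃ n : ℕ, 0 < G (Set.Ici (a + 1 / ((n : ℝ) + 1))) := by
    by_contra hcon
    have hall : ∀ n : ℕ, G (Set.Ici (a + 1 / ((n : ℝ) + 1))) = 0 := fun n => by
      by_contra h
      exact hcon ⟨n, pos_iff_ne_zero.2 h⟩
    have hcov : Set.Ioi a ⊆ ⋃ n : ℕ, Set.Ici (a + 1 / ((n : ℝ) + 1)) := by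
      intro x hx
      rw [Set.mem_Ioi] at hx
      obtain ⟨n, hn⟩ := exists_nat_one_div_lt (sub_pos.2 hx)
      exact Set.mem_iUnion.2 ⟨n, by rw [Set.mem_Ici]; linarith⟩
    have : G (Set.Ioi a) = 0 := measure_mono_null hcov (measure_iUnion_null hall)
    rw [this] at hIoi
    exact lt_irrefl _ hIoi
  obtain ⟨n, hn⟩ := hex
  have hpos : (0 : ℝ) < 1 / ((n : ℝ) + 1) := Nat.one_div_pos_of_nat
  exact ⟨a, a + 1 / ((n : ℝ) + 1), ha, by linarith, ha0, hn⟩

variable {Ω : Type*} [MeasurableSpace Ω] {P : Measure Ω} [IsProbabilityMeasure P]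
  {G : Measure ℝ} [IsProbabilityMeasure G] {τ : Z2.edgeSet → Ω → ℝ}

instance : Countable Z2.edgeSet := by
  have : Countable (Sym2 (ℤ × ℤ)) := Function.Surjective.countable
    (f := fun p : (ℤ × ℤ) × (ℤ × ℤ) => s(p.1, p.2)) (fun z => Sym2.ind (fun x y => ⟨(x, y), rfl⟩) z)
  infer_instance

/-- For i.i.d. weights with a law on `[0, ∞)` that is not a point mass, almost surely no
geodesic ray stays in a horizontal strip of finite width. -/
theorem no_ray_in_horizontal_strip (hG0 : G (Set.Iio 0) = 0) (hG : ∀ x, G {x} ≠ 1)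
    (hm : ∀ e, Measurable (τ e)) (hlaw : ∀ e, P.map (τ e) = G) (hind : iIndepFun τ P) :
    ∀ᵐ ω ∂P, ∀ v : ℕ → ℤ × ℤ, IsGeodesicRay (fun e => τ e ω) v →
      ∀ w : ℕ, ¬ ∀ i, |(v i).2| ≤ w := by
  obtain ⟨a, b, ha, hab, hGa, hGb⟩ := exists_levels G hG0 hG
  -- the length of the blocks used for the strip of half-width `w`
  set Lw : ℕ → ℕ := fun w => ⌈a * (4 * w + 2) / (b - a)⌉₊ + 1 with hLw
  have hLw1 : ∀ w, 1 ≤ Lw w := fun w => Nat.le_add_left 1 _
  have hLw2 : ∀ w : ℕ, a * ((Lw w : ℕ) + 4 * w + 2) < b * (Lw w : ℕ) := by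
    intro w
    have hba : 0 < b - a := sub_pos.2 hab
    have h1 : a * (4 * w + 2) / (b - a) ≤ (⌈a * (4 * w + 2) / (b - a)⌉₊ : ℝ) := Nat.le_ceil _
    have h2 : ((Lw w : ℕ) : ℝ) = (⌈a * (4 * w + 2) / (b - a)⌉₊ : ℝ) + 1 := by
      rw [hLw]; push_cast; ring
    rw [div_le_iff₀ hba] at h1
    rw [h2]
    nlinarith
  have hnonneg : ∀ᵐ ω ∂P, ∀ e, 0 ≤ τ e ω := by
    rw [ae_all_iff]
    intro e
    have h0 : P (τ e ⁻¹' Set.Iio 0) = 0 := by
      rw [← Measure.map_apply (hm e) measurableSet_Iio, hlaw e, hG0]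
    refine measure_mono_null (fun ω hω => ?_) h0
    simpa using hω
  have hblocks : ∀ᵐ ω ∂P, ∀ w : ℕ,
      (∀ m : ℕ, ∃ k : ℤ, (m : ℤ) ≤ k ∧
        IsBlock w (Lw w) a b (fun e => τ e ω) (k * ((Lw w : ℕ) + 1))) ∧
      (∀ m : ℕ, ∃ k : ℤ, k ≤ -(m : ℤ) ∧
        IsBlock w (Lw w) a b (fun e => τ e ω) (k * ((Lw w : ℕ) + 1))) := by
    rw [ae_all_iff]
    intro w
    rw [eventually_and, ae_all_iff, ae_all_iff]
    constructor
    · intro m
      filter_upwards [ae_exists_block hm hlaw hind w (Lw w) a b hGa hGb (Set.Ici (m : ℤ))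
        (Set.Ici_infinite _)] with ω hω
      obtain ⟨k, hk, hblk⟩ := hω
      exact ⟨k, hk, hblk⟩
    · intro m
      filter_upwards [ae_exists_block hm hlaw hind w (Lw w) a b hGa hGb (Set.Iic (-(m : ℤ)))
        (Set.Iic_infinite _)] with ω hω
      obtain ⟨k, hk, hblk⟩ := hω
      exact ⟨k, hk, hblk⟩
  filter_upwards [hnonneg, hblocks] with ω h1 h2 v hv w hstrip
  exact ray_strip_contra (hLw1 w) ha (hLw2 w) h1 (h2 w).1 (h2 w).2 v hv hstrip

end Vale.Agent.Lib.P158
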