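import Vale.Agent.Lib.P158.Defs

namespace Vale.Agent.Lib.P158

open SimpleGraph

variable {t : Z2.edgeSet → ℝ}

lemma wt_nonneg (ht : ∀ e, 0 ≤ t e) (e : Sym2 (ℤ × ℤ)) : 0 ≤ wt t e := by
  unfold wt
  split_ifs
  · exact ht _
  · exact le_rfl

lemma wt_eq_of_adj {u u' : ℤ × ℤ} (h : Z2.Adj u u') :
    wt t s(u, u') = t ⟨s(u, u'), (SimpleGraph.mem_edgeSet Z2).2 h⟩ := by
  unfold wt
  rw [dif_pos]

lemma walkTime_nonneg (ht : ∀ e, 0 ≤ t e) {x y : ℤ × ℤ} (p : Z2.Walk x y) :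
    0 ≤ walkTime t p := by
  unfold walkTime
  apply List.sum_nonneg
  intro a ha
  rw [List.mem_map] at ha
  obtain ⟨e, -, rfl⟩ := ha
  exact wt_nonneg ht e

lemma passageTime_le_walkTime (ht : ∀ e, 0 ≤ t e) {x y : ℤ × ℤ} (p : Z2.Walk x y) :
    passageTime t x y ≤ walkTime t p := by
  unfold passageTime
  refine ciInf_le ⟨0, ?_⟩ p
  rintro _ ⟨q, rfl⟩
  exact walkTime_nonneg ht q

@[simp] lemma walkTime_nil (x : ℤ × ℤ) : walkTime t (Walk.nil : Z2.Walk x x) = 0 := by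
  simp [walkTime]

@[simp] lemma walkTime_cons {x y z : ℤ × ℤ} (h : Z2.Adj x y) (p : Z2.Walk y z) :
    walkTime t (Walk.cons h p) = wt t s(x, y) + walkTime t p := by
  simp [walkTime]

@[simp] lemma walkTime_append {x y z : ℤ × ℤ} (p : Z2.Walk x y) (q : Z2.Walk y z) :
    walkTime t (p.append q) = walkTime t p + walkTime t q := by
  simp [walkTime, Walk.edges_append]

@[simp] lemma walkTime_reverse {x y : ℤ × ℤ} (p : Z2.Walk x y) :
    walkTime t p.reverse = walkTime t p := by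
  simp [walkTime, Walk.edges_reverse, List.sum_reverse]

lemma adj_up (x y : ℤ) : Z2.Adj (x, y) (x, y + 1) := by
  show |x - x| + |y - (y + 1)| = 1
  simp

lemma adj_right (x y : ℤ) : Z2.Adj (x, y) (x + 1, y) := by
  show |x - (x + 1)| + |y - y| = 1
  simp

lemma adj_abs_fst {u u' : ℤ × ℤ} (h : Z2.Adj u u') : |u'.1 - u.1| ≤ 1 := by
  have h' : |u.1 - u'.1| + |u.2 - u'.2| = 1 := h
  have := abs_nonneg (u.2 - u'.2)
  rw [abs_sub_comm]
  linarith

end Vale.Agent.Lib.P158
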