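import Vale.Agent.Lib.P158.Ray

namespace Vale.Agent.Lib.P158

open MeasureTheory ProbabilityTheory Filter
open scoped ENNReal Topology

set_option linter.unusedSectionVars false

/-- Product formula for events that live on pairwise disjoint blocks of an independent family
of sigma-algebras. -/
lemma meas_biInter_blocks {Ω ι κ : Type*} {mΩ : MeasurableSpace Ω} {μ : Measure Ω}
    [IsProbabilityMeasure μ] {m : ι → MeasurableSpace Ω} (h_le : ∀ i, m i ≤ mΩ)
    (h_indep : iIndep m μ) (S : κ → Set ι)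
    (hS : ∀ k k', k ≠ k' → Disjoint (S k) (S k'))
    (A : κ → Set Ω) (hA : ∀ k, MeasurableSet[⨆ i ∈ S k, m i] (A k)) (F : Finset κ) :
    μ (⋂ k ∈ F, A k) = ∏ k ∈ F, μ (A k) := by
  classical
  induction F using Finset.induction_on with
  | empty => simp
  | insert k F hk ih =>
    rw [Finset.set_biInter_insert, Finset.prod_insert hk, ← ih]
    have hdisj : Disjoint (S k) (⋃ j ∈ F, S j) := by
      rw [Set.disjoint_iUnion₂_right]
      intro j hj
      exact hS k j (fun h => hk (h ▸ hj))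
    have hind := indep_iSup_of_disjoint h_le h_indep hdisj
    refine (Indep_iff _ _ _).1 hind _ _ (hA k) ?_
    refine Finset.measurableSet_biInter (m := ⨆ i ∈ ⋃ j ∈ F, S j, m i) F ?_
    intro j hj
    have hle : (⨆ i ∈ S j, m i) ≤ ⨆ i ∈ ⋃ j ∈ F, S j, m i :=
      biSup_mono (fun i hi => Set.mem_biUnion hj hi)
    exact hle _ (hA j)

variable {Ω : Type*} [MeasurableSpace Ω] {P : Measure Ω} [IsProbabilityMeasure P]
  {G : Measure ℝ} [IsProbabilityMeasure G] {τ : Z2.edgeSet → Ω → ℝ}

/-- The event that there is a block at position `x0`. -/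
def blockEvent (w L : ℕ) (a b : ℝ) (τ : Z2.edgeSet → Ω → ℝ) (x0 : ℤ) : Set Ω :=
  {ω | IsBlock w L a b (fun e => τ e ω) x0}

omit [MeasurableSpace Ω] in
lemma blockEvent_eq (w L : ℕ) (a b : ℝ) (τ : Z2.edgeSet → Ω → ℝ) (x0 : ℤ) :
    blockEvent w L a b τ x0 = ⋂ e ∈ blockEdges w L x0, τ e ⁻¹' target w L a b x0 e := by
  ext ω
  simp [blockEvent, IsBlock]

lemma measurableSet_target (w L : ℕ) (a b : ℝ) (x0 : ℤ) (e : Z2.edgeSet) :
    MeasurableSet (target w L a b x0 e) := by
  unfold target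
  split_ifs
  · exact measurableSet_Iic
  · exact measurableSet_Ici

lemma blockEvent_measurable_sup (w L : ℕ) (a b : ℝ) (τ : Z2.edgeSet → Ω → ℝ) (x0 : ℤ) :
    MeasurableSet[⨆ e ∈ (blockEdges w L x0 : Set Z2.edgeSet),
      MeasurableSpace.comap (τ e) inferInstance] (blockEvent w L a b τ x0) := by
  rw [blockEvent_eq]
  refine Finset.measurableSet_biInter (m := ⨆ e ∈ (blockEdges w L x0 : Set Z2.edgeSet),
      MeasurableSpace.comap (τ e) inferInstance) _ ?_
  intro e he
  have hle : MeasurableSpace.comap (τ e) inferInstance ≤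
      ⨆ e ∈ (blockEdges w L x0 : Set Z2.edgeSet), MeasurableSpace.comap (τ e) inferInstance :=
    le_biSup (fun e => MeasurableSpace.comap (τ e) inferInstance) (Finset.mem_coe.2 he)
  exact hle _ ⟨_, measurableSet_target w L a b x0 e, rfl⟩

lemma blockEvent_measurable (hm : ∀ e, Measurable (τ e)) (w L : ℕ) (a b : ℝ) (x0 : ℤ) :
    MeasurableSet (blockEvent w L a b τ x0) := by
  have hle : (⨆ e ∈ (blockEdges w L x0 : Set Z2.edgeSet),
      MeasurableSpace.comap (τ e) inferInstance) ≤ (inferInstance : MeasurableSpace Ω) :=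
    iSup₂_le (fun e _ => (hm e).comap_le)
  exact hle _ (blockEvent_measurable_sup w L a b τ x0)

open Classical in
lemma card_blockEdges_le (w L : ℕ) (x0 : ℤ) :
    (blockEdges w L x0).card ≤ ((L + 1) * (2 * w + 2) + 1).choose 2 := by
  unfold blockEdges
  rw [Finset.card_subtype]
  refine (Finset.card_filter_le _ _).trans ?_
  rw [Finset.card_sym2, card_box]

/-- Lower bound for the probability of a block. -/
lemma blockEvent_prob_ge (hm : ∀ e, Measurable (τ e)) (hlaw : ∀ e, P.map (τ e) = G)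
    (hind : iIndepFun τ P) (w L : ℕ) (a b : ℝ) (x0 : ℤ) :
    (min (G (Set.Iic a)) (G (Set.Ici b))) ^ (((L + 1) * (2 * w + 2) + 1).choose 2)
      ≤ P (blockEvent w L a b τ x0) := by
  set q := min (G (Set.Iic a)) (G (Set.Ici b)) with hq
  rw [blockEvent_eq, hind.meas_biInter
    (fun e _ => ⟨_, measurableSet_target w L a b x0 e, rfl⟩)]
  have hq1 : q ≤ 1 := (min_le_left _ _).trans prob_le_one
  have h1 : ∀ e ∈ blockEdges w L x0, q ≤ P (τ e ⁻¹' target w L a b x0 e) := by
    intro e _
    rw [← Measure.map_apply (hm e) (measurableSet_target w L a b x0 e), hlaw e]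
    unfold target
    split_ifs
    · exact min_le_left _ _
    · exact min_le_right _ _
  refine le_trans ?_ (Finset.pow_card_le_prod _ _ q h1)
  exact pow_le_pow_of_le_one zero_le hq1 (card_blockEdges_le w L x0)

lemma sym2_exists_mem {α : Type*} (z : Sym2 α) : ∃ x, x ∈ z :=
  Sym2.ind (fun x y => ⟨x, Sym2.mem_mk_left x y⟩) z

open Classical in
lemma blockEdges_disjoint (w L : ℕ) (k k' : ℤ) (hk : k ≠ k') :
    Disjoint (blockEdges w L (k * (L + 1)) : Set Z2.edgeSet)
      (blockEdges w L (k' * (L + 1)) : Set Z2.edgeSet) := by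
  rw [Set.disjoint_left]
  intro e he he'
  rw [Finset.mem_coe] at he he'
  unfold blockEdges at he he'
  rw [Finset.mem_subtype, Finset.mem_sym2_iff] at he he'
  obtain ⟨u, hu⟩ := sym2_exists_mem e.1
  have h1 := (mem_box.1 (he u hu)).1
  have h2 := (mem_box.1 (he' u hu)).1
  have hL : (0 : ℤ) ≤ L := Int.natCast_nonneg L
  rcases lt_or_gt_of_ne hk with h | h
  · have : k + 1 ≤ k' := h
    nlinarith
  · have : k' + 1 ≤ k := h
    nlinarith

/-- The probability that none of the blocks indexed by `F` occurs decays geometrically. -/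
lemma no_block_prob_le (hm : ∀ e, Measurable (τ e)) (hlaw : ∀ e, P.map (τ e) = G)
    (hind : iIndepFun τ P) (w L : ℕ) (a b : ℝ) (F : Finset ℤ) :
    P (⋂ k ∈ F, (blockEvent w L a b τ (k * (L + 1)))ᶜ)
      ≤ (1 - (min (G (Set.Iic a)) (G (Set.Ici b))) ^
          (((L + 1) * (2 * w + 2) + 1).choose 2)) ^ F.card := by
  rw [meas_biInter_blocks (fun e => (hm e).comap_le) hind.iIndep
    (fun k : ℤ => (blockEdges w L (k * (L + 1)) : Set Z2.edgeSet))
    (fun k k' hk => blockEdges_disjoint w L k k' hk)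
    (fun k => (blockEvent w L a b τ (k * (L + 1)))ᶜ)
    (fun k => (blockEvent_measurable_sup w L a b τ (k * (L + 1))).compl) F]
  refine le_trans (Finset.prod_le_prod' (fun k _ => ?_)) (le_of_eq (Finset.prod_const _))
  rw [prob_compl_eq_one_sub (blockEvent_measurable hm w L a b _)]
  exact tsub_le_tsub_left (blockEvent_prob_ge hm hlaw hind w L a b _) 1

/-- Almost surely, every infinite set of positions contains a block. -/
lemma ae_exists_block (hm : ∀ e, Measurable (τ e)) (hlaw : ∀ e, P.map (τ e) = G)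
    (hind : iIndepFun τ P) (w L : ℕ) (a b : ℝ) (ha : 0 < G (Set.Iic a))
    (hb : 0 < G (Set.Ici b)) (K : Set ℤ) (hK : K.Infinite) :
    ∀ᵐ ω ∂P, ∃ k ∈ K, IsBlock w L a b (fun e => τ e ω) (k * (L + 1)) := by
  set p := (min (G (Set.Iic a)) (G (Set.Ici b))) ^ (((L + 1) * (2 * w + 2) + 1).choose 2)
    with hp
  have hp0 : p ≠ 0 := pow_ne_zero _ (ne_of_gt (lt_min ha hb))
  have hlt : 1 - p < 1 := ENNReal.sub_lt_self ENNReal.one_ne_top one_ne_zero hp0
  have hbad : P {ω | ¬ ∃ k ∈ K, IsBlock w L a b (fun e => τ e ω) (k * (L + 1))} = 0 := by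
    have hle : ∀ n : ℕ, P {ω | ¬ ∃ k ∈ K, IsBlock w L a b (fun e => τ e ω) (k * (L + 1))}
        ≤ (1 - p) ^ n := by
      intro n
      obtain ⟨F, hFK, hFn⟩ := hK.exists_subset_card_eq n
      have hsub : {ω | ¬ ∃ k ∈ K, IsBlock w L a b (fun e => τ e ω) (k * (L + 1))}
          ⊆ ⋂ k ∈ F, (blockEvent w L a b τ (k * (L + 1)))ᶜ := by
        intro ω hω
        simp only [Set.mem_iInter, Set.mem_compl_iff]
        intro k hk hblk
        exact hω ⟨k, hFK (Finset.mem_coe.2 hk), hblk⟩
      refine (measure_mono hsub).trans ?_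
      have := no_block_prob_le hm hlaw hind w L a b F
      rw [hFn] at this
      exact this
    have hlim := ENNReal.tendsto_pow_atTop_nhds_zero_of_lt_one hlt
    exact le_antisymm (ge_of_tendsto' hlim hle) zero_le
  exact hbad

end Vale.Agent.Lib.P158
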