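import Vale.Agent.Lib.P158.Crossing

namespace Vale.Agent.Lib.P158

open SimpleGraph

variable {w L : ℕ} {a b : ℝ} {t : Z2.edgeSet → ℝ}

/-- An injective sequence in a horizontal strip has unbounded first coordinate. -/
lemma strip_unbounded {v : ℕ → ℤ × ℤ} (hinj : Function.Injective v)
    (hstrip : ∀ i, |(v i).2| ≤ w) (B : ℤ) : ∃ i, B < |(v i).1| := by
  by_contra hcon
  have hcon' : ∀ i, |(v i).1| ≤ B := fun i => not_lt.1 (fun h => hcon ⟨i, h⟩)
  have hmem : ∀ i, v i ∈ (Finset.Icc ((-B, -(w : ℤ)) : ℤ × ℤ) (B, (w : ℤ)) : Set (ℤ × ℤ)) := by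
    intro i
    rw [Finset.mem_coe, Finset.mem_Icc, Prod.le_def, Prod.le_def]
    have h1 := abs_le.1 (hcon' i)
    have h2 := abs_le.1 (hstrip i)
    exact ⟨⟨h1.1, h2.1⟩, h1.2, h2.2⟩
  exact Set.infinite_of_injective_forall_mem hinj hmem (Finset.finite_toSet _)

/-- If blocks occur arbitrarily far to the right and to the left, then no geodesic ray
stays in the horizontal strip of half-width `w`. -/
theorem ray_strip_contra (hL : 1 ≤ L) (ha : 0 ≤ a)
    (hab : a * (L + 4 * w + 2) < b * L) (ht : ∀ e, 0 ≤ t e)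
    (hR : ∀ m : ℕ, ∃ k : ℤ, (m : ℤ) ≤ k ∧ IsBlock w L a b t (k * (L + 1)))
    (hLft : ∀ m : ℕ, ∃ k : ℤ, k ≤ -(m : ℤ) ∧ IsBlock w L a b t (k * (L + 1)))
    (v : ℕ → ℤ × ℤ) (hv : IsGeodesicRay t v) (hstrip : ∀ i, |(v i).2| ≤ w) : False := by
  have hinj := hv.1
  have hadj := hv.2.1
  have hX : ∀ i, |(v (i + 1)).1 - (v i).1| ≤ 1 := fun i => adj_abs_fst (hadj i)
  have hLz : (0 : ℤ) ≤ L := Int.natCast_nonneg L
  by_cases hA : ∀ B : ℤ, ∃ i, B < (v i).1
  · -- the ray goes arbitrarily far to the right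
    obtain ⟨k, hk, hblk⟩ := hR (v 0).1.toNat
    have hk0 : (0 : ℤ) ≤ k := le_trans (Int.natCast_nonneg _) hk
    have h1 : (v 0).1 ≤ k * (L + 1) := by
      have : (v 0).1 ≤ k := le_trans (Int.self_le_toNat _) hk
      nlinarith
    obtain ⟨j0, hj0⟩ := hA (k * (L + 1) + L)
    obtain ⟨i, j, hij, e1, e2, e3⟩ := exists_crossing (fun n => (v n).1) hX (k * (L + 1))
      (k * (L + 1) + L) (by have : (1 : ℤ) ≤ L := by exact_mod_cast hL
                            linarith) 0 j0 (Nat.zero_le _) h1 hj0.le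
    exact block_no_crossing hL ha hab ht hblk v hv hstrip i j hij (Or.inl ⟨e1, e2⟩) e3
  · by_cases hB : ∀ B : ℤ, ∃ i, (v i).1 < -B
    · -- the ray goes arbitrarily far to the left
      obtain ⟨k, hk, hblk⟩ := hLft ((-(v 0).1).toNat + 1)
      have hk0 : k ≤ -1 := by
        have : (0 : ℤ) ≤ ((-(v 0).1).toNat : ℤ) := Int.natCast_nonneg _
        push_cast at hk
        linarith
      have h1 : k * (L + 1) + L ≤ (v 0).1 := by
        have h2 : -(v 0).1 ≤ ((-(v 0).1).toNat : ℤ) := Int.self_le_toNat _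
        push_cast at hk
        nlinarith
      obtain ⟨j0, hj0⟩ := hB (-(k * (L + 1)))
      rw [neg_neg] at hj0
      obtain ⟨i, j, hij, e1, e2, e3⟩ := exists_crossing' (fun n => (v n).1) hX (k * (L + 1))
        (k * (L + 1) + L) (by have : (1 : ℤ) ≤ L := by exact_mod_cast hL
                              linarith) 0 j0 (Nat.zero_le _) h1 hj0.le
      exact block_no_crossing hL ha hab ht hblk v hv hstrip i j hij (Or.inr ⟨e1, e2⟩) e3
    · -- otherwise the first coordinate is bounded, which is impossible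
      rw [not_forall] at hA hB
      obtain ⟨B1, hB1⟩ := hA
      obtain ⟨B2, hB2⟩ := hB
      obtain ⟨i, hi⟩ := strip_unbounded hinj hstrip (max B1 B2)
      have h1 : (v i).1 ≤ B1 := not_lt.1 (fun h => hB1 ⟨i, h⟩)
      have h2 : -B2 ≤ (v i).1 := not_lt.1 (fun h => hB2 ⟨i, h⟩)
      have h3 : |(v i).1| ≤ max B1 B2 := by
        rw [abs_le]
        constructor
        · have := le_max_right B1 B2
          linarith
        · exact le_trans h1 (le_max_left _ _)
      linarith

end Vale.Agent.Lib.P158
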